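import Vale.Agent.P032.H240.Iso.Gn
import Vale.Agent.P032.H469.IsoSym

/-!
# P032, isolated switching direction: images, external clauses, the check of a lemma

* `gI Ls e` : kinds `0 .. 23` = `gb`, kind `24` : external clause, kind `25` : image of a clause of `Ls`,
* `good_lem` : a checked certificate gives `Good C` (one free state per side),
* `good_core` : the same with a witness of a demand.
-/

namespace Vale.Agent.P032.H240.Iso

open Vale.Agent.P032.H766.Iso (Fr St P L Good dm nm tm rm mm im iml okc good_im)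
open Vale.Agent.P032.H820.K (trv ps ng mp lb lb_iff nthC cd)
open Vale.Agent.P032.H240.W (lv Ho ho_trv hh ht hl hn hp hp' hng lv_ps lv_ng ho_bif chkU chkU_sound nthC_ho nl lv_nl)

/-! ### fast images -/

def dmf (h j : ℕ) : ℕ :=
  bif Nat.ble h 2 then Nat.mod (Nat.add j (Nat.mul 2 h)) 6
  else Nat.mod (Nat.sub (Nat.add (Nat.mul 2 (Nat.sub h 3)) 7) j) 6
def nmf (h p : ℕ) : ℕ := bif Nat.beq p 0 then 0 else Nat.succ (dmf h (Nat.sub p 1))
def tmf (h t : ℕ) : ℕ := bif Nat.ble h 2 then t else Nat.sub 1 t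
def rmf (h r : ℕ) : ℕ :=
  bif Nat.ble r 5 then
    (bif Nat.ble h 2 then dmf h r else Nat.mod (Nat.sub (Nat.add (Nat.mul 2 (Nat.sub h 3)) 11) r) 6)
  else Nat.add 6 (bif Nat.ble h 2 then dmf h (Nat.sub r 6)
    else Nat.mod (Nat.sub (Nat.add (Nat.mul 2 (Nat.sub h 3)) 10) (Nat.sub r 6)) 6)

/-- three-bit digits -/
def dgw (w c : ℕ) : ℕ := Nat.land (Nat.shiftRight w (Nat.mul 3 c)) 7

def mst (w S s c : ℕ) : ℕ := bif tb S c then Nat.lor s (Nat.shiftLeft 1 (dgw w c)) else s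
def mmf (w S : ℕ) : ℕ := mst w S (mst w S (mst w S (mst w S (mst w S (mst w S 0 0) 1) 2) 3) 4) 5

theorem ble_iff {a b : ℕ} : Nat.ble a b = decide (a ≤ b) := by
  cases h : Nat.ble a b
  · symm; rw [decide_eq_false_iff_not]
    intro h1
    rw [← Nat.ble_eq, h] at h1; cases h1
  · symm; rw [decide_eq_true_iff, ← Nat.ble_eq]; exact h

theorem dmf_eq {h j : ℕ} : dmf h j = dm h j := by
  unfold dmf dm
  rw [ble_iff]
  by_cases h1 : h < 3
  · have h2 : h ≤ 2 := by omega
    rw [if_pos h1, decide_eq_true h2, cond_true]; rfl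
  · have h2 : ¬ h ≤ 2 := by omega
    rw [if_neg h1, decide_eq_false h2, cond_false]; rfl

theorem nmf_eq {h p : ℕ} : nmf h p = nm h p := by
  unfold nmf nm
  rw [dmf_eq]
  cases p with
  | zero => rfl
  | succ p => 
    show Nat.succ (dm h (Nat.sub (p + 1) 1)) = if p + 1 = 0 then 0 else 1 + dm h (p + 1 - 1)
    rw [if_neg (Nat.succ_ne_zero p)]
    show dm h (p + 1 - 1) + 1 = _
    omega

theorem tmf_eq {h t : ℕ} : tmf h t = tm h t := by
  unfold tmf tm
  rw [ble_iff]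
  by_cases h1 : h < 3
  · have h2 : h ≤ 2 := by omega
    rw [if_pos h1, decide_eq_true h2, cond_true]
  · have h2 : ¬ h ≤ 2 := by omega
    rw [if_neg h1, decide_eq_false h2, cond_false]; rfl

theorem rmf_eq {h r : ℕ} : rmf h r = rm h r := by
  unfold rmf rm
  rw [ble_iff, ble_iff, dmf_eq, dmf_eq]
  by_cases h1 : h < 3
  · have h2 : h ≤ 2 := by omega
    rw [decide_eq_true h2, cond_true, cond_true, if_pos h1, if_pos h1]
    by_cases h3 : r < 6
    · have h4 : r ≤ 5 := by omega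
      rw [if_pos h3, decide_eq_true h4, cond_true]
    · have h4 : ¬ r ≤ 5 := by omega
      rw [if_neg h3, decide_eq_false h4, cond_false]; rfl
  · have h2 : ¬ h ≤ 2 := by omega
    rw [decide_eq_false h2, cond_false, cond_false, if_neg h1, if_neg h1]
    by_cases h3 : r < 6
    · have h4 : r ≤ 5 := by omega
      rw [if_pos h3, decide_eq_true h4, cond_true]
      show (2 * (h - 3) + 11 - r) % 6 = (2 * (h - 3) + 1 + 10 - r) % 6
      rfl
    · have h4 : ¬ r ≤ 5 := by omega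
      rw [if_neg h3, decide_eq_false h4, cond_false]
      show 6 + (2 * (h - 3) + 10 - (r - 6)) % 6 = 6 + (2 * (h - 3) + 1 + 9 - (r - 6)) % 6
      rfl

theorem mmf_eq {w S : ℕ} : mmf w S = mm (dgw w) S := by
  have e : ∀ s c, mst w S s c = if S.testBit c then s ||| 1 <<< dgw w c else s := by
    intro s c
    unfold mst
    rw [tb_eq]
    cases S.testBit c <;> rfl
  unfold mmf
  simp only [e]
  rfl

/-- image of a code -/
def imf (h w n : ℕ) : ℕ :=
  bif Nat.beq (Nat.mod n 8) 2 then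
    at_ 2 (nmf h (Nat.mod (Nat.div n 8) 16)) (dmf h (Nat.mod (Nat.div n 128) 8)) (tmf h (Nat.mod (Nat.div n 1024) 2))
      (mmf w (Nat.div n 2048)) else
  bif Nat.beq (Nat.mod n 8) 0 then at_ 0 (nmf h (Nat.mod (Nat.div n 8) 16)) 0 0 (mmf w (Nat.div n 2048)) else
  bif Nat.beq (Nat.mod n 8) 1 then at_ 1 (nmf h (Nat.mod (Nat.div n 8) 16)) 0 0 (mmf w (Nat.div n 2048)) else
  bif Nat.beq (Nat.mod n 8) 3 then
    at_ 3 (nmf h (Nat.mod (Nat.div n 8) 16)) (dmf h (Nat.mod (Nat.div n 128) 8)) (tmf h (Nat.mod (Nat.div n 1024) 2))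
      (mmf w (Nat.div n 2048)) else
  bif Nat.beq (Nat.mod n 8) 4 then at_ 4 (nmf h (Nat.mod (Nat.div n 8) 16)) 0 0 (mmf w (Nat.div n 2048)) else
    at_ 5 (rmf h (Nat.mod (Nat.div n 8) 16)) 0 0 (mmf w (Nat.div n 2048))

theorem cd_at {k p d t S : ℕ} : Vale.Agent.P032.H766.Iso.cd k p d t S = at_ k p d t S := by
  rw [at_eq]; unfold Vale.Agent.P032.H766.Iso.cd; omega

theorem imf_eq {h w n : ℕ} : imf h w n = im h (dgw w) n := by
  unfold imf im
  rw [nmf_eq, dmf_eq, tmf_eq, rmf_eq, mmf_eq]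
  simp only [cd_at]
  show _ = match n % 8 with
    | 0 => at_ 0 (nm h (n / 8 % 16)) 0 0 (mm (dgw w) (n / 2048))
    | 1 => at_ 1 (nm h (n / 8 % 16)) 0 0 (mm (dgw w) (n / 2048))
    | 2 => at_ 2 (nm h (n / 8 % 16)) (dm h (n / 128 % 8)) (tm h (n / 1024 % 2)) (mm (dgw w) (n / 2048))
    | 3 => at_ 3 (nm h (n / 8 % 16)) (dm h (n / 128 % 8)) (tm h (n / 1024 % 2)) (mm (dgw w) (n / 2048))
    | 4 => at_ 4 (nm h (n / 8 % 16)) 0 0 (mm (dgw w) (n / 2048))
    | _ => at_ 5 (rm h (n / 8 % 16)) 0 0 (mm (dgw w) (n / 2048))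
  have e : Nat.mod n 8 = n % 8 := rfl
  have e1 : Nat.mod (Nat.div n 8) 16 = n / 8 % 16 := rfl
  have e2 : Nat.mod (Nat.div n 128) 8 = n / 128 % 8 := rfl
  have e3 : Nat.mod (Nat.div n 1024) 2 = n / 1024 % 2 := rfl
  have e4 : Nat.div n 2048 = n / 2048 := rfl
  rw [e, e1, e2, e3, e4]
  have hlt : n % 8 < 8 := Nat.mod_lt _ (by norm_num)
  generalize n % 8 = k at hlt ⊢
  interval_cases k <;> rfl

/-- image of a signed literal -/
def ilf (h w l : ℕ) : ℕ := Nat.add (Nat.mul 2 (imf h w (Nat.div l 2))) (Nat.land l 1)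

theorem ilf_eq {h w l : ℕ} : ilf h w l = iml h (dgw w) l := by
  unfold ilf iml
  rw [imf_eq]
  have e2 : Nat.land l 1 = l % 2 := by
    show l &&& 1 = l % 2
    exact Nat.and_one_is_mod l
  rw [e2]; rfl

/-- image of a clause -/
def imL (h w : ℕ) (C : List ℕ) : List ℕ := @List.rec ℕ (fun _ => List ℕ) [] (fun l _ ih => ilf h w l :: ih) C

theorem imL_eq {h w : ℕ} {C : List ℕ} : imL h w C = C.map (iml h (dgw w)) := by
  induction C with
  | nil => rfl
  | cons l C ih =>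
    show ilf h w l :: imL h w C = iml h (dgw w) l :: C.map (iml h (dgw w))
    rw [ilf_eq, ih]

/-- the permutations of `0 .. 4` (lexicographic), packed -/
def PTN : ℕ := 0xa0a72909ca1172a05ca5072a21ca0b5290d4a1952b054a5852b214a1332a0cca1a32b08ca9832b40ca5312a2c4a5a12b284a9912b444a0a8e90a3a118ea063a508ea223a0c4e9113a214ec053a604ec213a142ea10ba222ec08baa02ec40ba540ea303a620ec283aa10ec443a0b8a90e2a198ab062a588ab222a0c6a911aa216ac05aa606ac21aa1c2ab10aa232ac0caae02ac60aa5c0ab302a630ac2c2ae10ac642a1386a0e1a1a86b0a1a9886b421a1466a119a2266c099aa066c419a1c46b111a2346c0d1ae046c611a9c06b501aa306c4c1ae206c681a5382a2e0a5a82b2a0a9982b460a5462a318a6262c298aa162c458a5c42b310a6342c2d0ae142c650a9c22b508aa322c4c8ae222c688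
def pw (i : ℕ) : ℕ := Nat.land (Nat.shiftRight PTN (Nat.mul 18 i)) 262143

theorem pw_ok : ∀ i < 120, dgw (pw i) 5 = 5 ∧ (∀ c < 6, dgw (pw i) c < 6) ∧
    ∀ c < 6, ∀ c' < 6, dgw (pw i) c = dgw (pw i) c' → c = c' := by decide +kernel

/-! ### good clauses with admissible codes -/

/-- good clause with admissible codes -/
def GK (C : List ℕ) : Prop := Good C ∧ ∀ l ∈ C, okc (l / 2) = true

theorem gk_trv : GK trv := by
  refine ⟨fun T Q _ => ?_, by decide⟩
  by_cases h : P T Q 0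
  · exact ⟨0, by simp [trv], by unfold L; simpa using h⟩
  · exact ⟨1, by simp [trv], by unfold L; simpa using h⟩

theorem nthC_gk {e : List (List ℕ)} (h : ∀ c ∈ e, GK c) (i : ℕ) : GK (nthC e i) := by
  induction e generalizing i with
  | nil => exact gk_trv
  | cons c e ih =>
    show GK (bif Nat.beq i 0 then c else nthC e (Nat.sub i 1))
    cases Nat.beq i 0
    · exact ih (fun c hc => h c (List.mem_cons_of_mem _ hc)) _
    · exact h c List.mem_cons_self

section
variable {T : ℕ → ℕ → Prop} {Q : ℕ → St → Prop} {σ : ℕ → St}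

theorem lv_L {l : ℕ} (h : l / 2 % 8 ≠ 6) : lv (PA T Q σ) l ↔ L T Q l := by
  unfold lv L PA
  rw [if_neg h]

theorem im_kind {h n : ℕ} {f : ℕ → ℕ} : im h f n % 8 ≠ 6 := by
  unfold im
  simp only [cd_at]
  split <;> (rw [at_eq]; omega)

theorem ho_im {C : List ℕ} {h w : ℕ} (F : Fr T Q) (hC : GK C) (hh : h < 6) (h5 : dgw w 5 = 5)
    (hf : ∀ c < 6, dgw w c < 6) (hi : ∀ c < 6, ∀ c' < 6, dgw w c = dgw w c' → c = c') :
    Ho (PA T Q σ) (imL h w C) := by
  obtain ⟨l, hl, h1⟩ := good_im hh h5 hf hi hC.2 hC.1 T Q F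
  refine ⟨l, by rw [imL_eq]; exact hl, (lv_L ?_).2 h1⟩
  obtain ⟨m, -, rfl⟩ := List.mem_map.1 hl
  have : iml h (dgw w) m / 2 = im h (dgw w) (m / 2) := by unfold iml; omega
  rw [this]
  exact im_kind

end

/-- the image with the numbers `h` and `i` -/
def c_im (Ls : List (List ℕ)) (j h i : ℕ) : List ℕ := cd (lb h 6 && lb i 120) (imL h (pw i) (nthC Ls j))

/-- **the generator** -/
def gI (Ls e : List (List ℕ)) (n : ℕ) : List ℕ :=
  bif Nat.beq (Nat.land n 63) 24 then nthC e (Nat.shiftRight n 6) else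
  bif Nat.beq (Nat.land n 63) 25 then
    c_im Ls (Nat.shiftRight n 20) (g1 n) (Nat.land (Nat.shiftRight n 12) 255)
  else gb n

theorem gI_ho {T : ℕ → ℕ → Prop} {Q : ℕ → St → Prop} {σ : ℕ → St} {Ls e : List (List ℕ)} (F : Fr T Q)
    (hσ : ∀ t < 2, Q t (σ t)) (hL : ∀ C ∈ Ls, GK C) (he : ∀ c ∈ e, Ho (PA T Q σ) c) (n : ℕ) :
    Ho (PA T Q σ) (gI Ls e n) := by
  unfold gI
  refine ho_bif (nthC_ho he _) (ho_bif (ho_cd fun h => ?_) (gb_ho F hσ n))
  rw [Bool.and_eq_true, lb_iff, lb_iff] at h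
  obtain ⟨h5, hf, hi⟩ := pw_ok _ h.2
  exact ho_im F (nthC_gk hL _) h.1 h5 hf hi

/-- no letter atoms -/
def nok (C : List ℕ) : Bool := C.all fun l => okc (l / 2) && decide (l / 2 % 8 ≠ 6)

theorem nok_iff {C : List ℕ} (h : nok C = true) : ∀ l ∈ C, okc (l / 2) = true ∧ l / 2 % 8 ≠ 6 := by
  intro l hl
  have := List.all_eq_true.1 h l hl
  rw [Bool.and_eq_true, decide_eq_true_iff] at this
  exact this

/-- the negated clause -/
def ngC (C : List ℕ) : List (List ℕ) := C.map fun l => [nl l]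

/-- **A lemma.** -/
theorem good_lem {Ls : List (List ℕ)} {C : List ℕ} {B HB dA d : ℕ} {A Ci D H : List ℕ} (hL : ∀ C ∈ Ls, GK C)
    (hC : nok C = true) (h : chkU (gI Ls (ngC C)) B HB dA d A Ci D H = true) : GK C := by
  refine ⟨fun T Q F => ?_, fun l hl => (nok_iff hC l hl).1⟩
  by_contra hno
  push Not at hno
  obtain ⟨σ0, h0⟩ := F.some_ 0 (by norm_num)
  obtain ⟨σ1, h1⟩ := F.some_ 1 (by norm_num)
  refine chkU_sound h (v := PA T Q fun t => if t = 0 then σ0 else σ1) (gI_ho F ?_ hL ?_)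
  · intro t ht
    interval_cases t
    · exact h0
    · exact h1
  · intro c hc
    obtain ⟨l, hl, rfl⟩ := List.mem_map.1 hc
    exact hh (lv_nl.2 fun h2 => hno l hl ((lv_L (nok_iff hC l hl).2).1 h2))

/-- the units of a witness of a demand -/
def wit (p d t S : ℕ) : List (List ℕ) := ((List.range 6).filter fun c => S.testBit c).map fun c => [ng (xc t p d c)]

/-- **A core.** -/
theorem good_core {Ls : List (List ℕ)} {C : List ℕ} {p d t S B HB dA dd : ℕ} {A Ci D H : List ℕ} (hL : ∀ C ∈ Ls, GK C)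
    (hb : (p < 7 ∧ d < 6) ∧ t < 2 ∧ S < 64) (hC : nok C = true)
    (h : chkU (gI Ls (wit p d t S ++ ngC C)) B HB dA dd A Ci D H = true) : GK (ng (at_ 2 p d t S) :: C) := by
  obtain ⟨⟨hp, hd⟩, ht, hS⟩ := hb
  refine ⟨fun T Q F => ?_, fun l hl => ?_⟩
  · by_contra hno
    push Not at hno
    have e : ∀ σ : ℕ → St, PA T Q σ (at_ 2 p d t S) := by
      intro σ
      have h1 := hno _ List.mem_cons_self
      have hk : ng (at_ 2 p d t S) / 2 % 8 ≠ 6 := by
        have : ng (at_ 2 p d t S) = 2 * at_ 2 p d t S + 1 := rfl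
        rw [this, at_eq]; omega
      rw [← lv_L (σ := σ) hk, lv_ng, not_not] at h1
      exact h1
    have e1 := e (fun _ _ _ _ => True)
    rw [pa2 (by omega) (by omega) ht] at e1
    obtain ⟨τ, hτ, h2⟩ := e1
    obtain ⟨σ0, h0⟩ := F.some_ 0 (by norm_num)
    obtain ⟨σ1, h1⟩ := F.some_ 1 (by norm_num)
    have hσ : ∀ s < 2, Q s (if s = t then τ else if s = 0 then σ0 else σ1) := by
      intro s hs
      by_cases h3 : s = t
      · rw [if_pos h3, h3]; exact hτ
      · rw [if_neg h3]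
        interval_cases s
        · exact h0
        · exact h1
    refine chkU_sound h (v := PA T Q fun s => if s = t then τ else if s = 0 then σ0 else σ1)
      (gI_ho F hσ hL ?_)
    intro c hc
    rcases List.mem_append.1 hc with hc | hc
    · obtain ⟨x, hx, rfl⟩ := List.mem_map.1 hc
      rw [List.mem_filter, List.mem_range] at hx
      refine hng fun h4 => ?_
      rw [pa_xc (by omega) (by omega) ht, if_pos rfl] at h4
      exact h2 x hx.1 hx.2 h4
    · obtain ⟨l, hl, rfl⟩ := List.mem_map.1 hc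
      exact hh (lv_nl.2 fun h2 => hno l (List.mem_cons_of_mem _ hl) ((lv_L (nok_iff hC l hl).2).1 h2))
  · rcases List.mem_cons.1 hl with rfl | hl
    · have e0 : ng (at_ 2 p d t S) / 2 = at_ 2 p d t S := by
        have : ng (at_ 2 p d t S) = 2 * at_ 2 p d t S + 1 := rfl
        omega
      obtain ⟨h1, h2, h3, h4, h5⟩ := at_div (k := 2) (S := S) (by omega) (show p < 16 by omega) (show d < 8 by omega) ht
      rw [e0]
      unfold okc
      rw [h1, h2, h3, h5]
      simp [hp, hd, hS]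
    · exact (nok_iff hC l hl).1

/-- the empty clause is not good in a system -/
theorem not_fr (h : GK []) (T : ℕ → ℕ → Prop) (Q : ℕ → St → Prop) (F : Fr T Q) : False := by
  obtain ⟨l, hl, -⟩ := h.1 T Q F
  exact absurd hl List.not_mem_nil

end Vale.Agent.P032.H240.Iso
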