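import Vale.Agent.P032.H240.Iso.Ck

/-!
# P032: the check of long certificates (all numbers forced)

`chkF` has the same value as `W.chkU`, but the mask of unit clauses and the counters are computed at
each step, so that there is no deep recursion in the kernel.
-/

namespace Vale.Agent.P032.H240.Iso

open Vale.Agent.P032.H139.Lrat (br Db build)
open Vale.Agent.P032.H820.K (frc addU prp inp rn ck unL mpl dmk)
open Vale.Agent.P032.H240.W (inG Ho)
open Vale.Agent.P032.H766.Iso (Fr St P L Good)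

/-- input clauses -/
noncomputable def inpF (t : Db) (cs : List ℕ) (k : ℕ → ℕ → Bool) : ℕ → ℕ → Bool :=
  @List.rec ℕ (fun _ => ℕ → ℕ → Bool) k
    (fun c _ ih n U => br (Nat.beq (t.get n) c)
      (frc (Nat.succ n) false fun n' => frc (addU c U) false fun U' => ih n' U') false) cs

theorem inpF_eq {t : Db} {cs : List ℕ} {k k' : ℕ → ℕ → Bool} (hk : ∀ n U, k n U = k' n U) (n U : ℕ) :
    inpF t cs k n U = inp t cs k' n U := by
  induction cs generalizing n U with
  | nil => exact hk n U
  | cons c cs ih =>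
    show br (Nat.beq (t.get n) c) (inpF t cs k (Nat.succ n) (addU c U)) false =
      br (Nat.beq (t.get n) c) (inp t cs k' (Nat.succ n) (addU c U)) false
    rw [ih]

/-- derived clauses -/
noncomputable def rnF (B mB fuel : ℕ) (t : Db) (hs : List ℕ) : ℕ → ℕ → Bool :=
  @List.rec ℕ (fun _ => ℕ → ℕ → Bool) (fun _ _ => false)
    (fun x _ ih n U =>
      frc (t.get n) false fun c => frc (Nat.lor c U) false fun M =>
      br (prp B mB t n fuel x M)
        (br (Nat.beq c 0) true (frc (addU c U) false fun U' => frc (Nat.succ n) false fun n' => ih n' U')) false) hs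

theorem rnF_eq {B mB fuel : ℕ} {t : Db} {hs : List ℕ} (n U : ℕ) :
    rnF B mB fuel t hs n U = rn B mB fuel t hs n U := by
  induction hs generalizing n U with
  | nil => rfl
  | cons x hs ih =>
    show br (prp B mB t n fuel x (Nat.lor (t.get n) U))
        (br (Nat.beq (t.get n) 0) true (rnF B mB fuel t hs (Nat.succ n) (addU (t.get n) U))) false =
      br (prp B mB t n fuel x (Nat.lor (t.get n) U))
        (br (Nat.beq (t.get n) 0) true (rn B mB fuel t hs (Nat.succ n) (addU (t.get n) U))) false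
    rw [ih]

noncomputable def ckF (B fuel : ℕ) (t : Db) (cs hs : List ℕ) : Bool :=
  inpF t cs (rnF B (Nat.sub (Nat.shiftLeft 1 B) 1) fuel t hs) 0 0

theorem ckF_eq {B fuel : ℕ} {t : Db} {cs hs : List ℕ} : ckF B fuel t cs hs = ck B fuel t cs hs :=
  inpF_eq (fun n U => rnF_eq n U) 0 0

/-- `build` with forced leaves -/
noncomputable def bldF (d : ℕ) : List ℕ → ℕ → (Db → List ℕ → Db) → Db :=
  @Nat.rec (fun _ => List ℕ → ℕ → (Db → List ℕ → Db) → Db)
    (fun l _ k => @List.rec ℕ (fun _ => Db) (k (.leaf 0) [])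
      (fun c cs _ => frc c (.leaf 0) fun c' => k (.leaf c') cs) l)
    (fun d ih l lo k => ih l lo (fun t1 l1 => frc (Nat.add lo (Nat.shiftLeft 1 d)) (.leaf 0) fun mid =>
      ih l1 mid (fun t2 l2 => frc (Nat.sub mid 1) (.leaf 0) fun m => k (.node m t1 t2) l2))) d

noncomputable def chkF1 (gen : ℕ → List ℕ) (B mB HB d : ℕ) (C D H : List ℕ) (A : Db) : Bool :=
  ckF HB 100000 (bldF d (mpl (inG gen B mB A) (unL C) (mpl (dmk B mB 100000) (unL D) [])) 0 (fun t _ => t))
    (mpl (inG gen B mB A) (unL C) []) (unL H)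

/-- **The check of a certificate.** -/
noncomputable def chkF (gen : ℕ → List ℕ) (B HB dA d : ℕ) (A C D H : List ℕ) : Bool :=
  chkF1 gen B (Nat.sub (Nat.shiftLeft 1 B) 1) HB d C D H (bldF dA (unL A) 0 (fun t _ => t))

/-- **Soundness.** -/
theorem chkF_sound {gen : ℕ → List ℕ} {B HB dA d : ℕ} {A C D H : List ℕ}
    (h : chkF gen B HB dA d A C D H = true) {v : ℕ → Prop} (hg : ∀ n, Ho v (gen n)) : False := by
  unfold chkF chkF1 at h
  rw [ckF_eq] at h
  refine Vale.Agent.P032.H820.K.ck_sound h (W.aV v (bldF dA (unL A) 0 fun t _ => t)) fun K hK => ?_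
  obtain ⟨x, rfl⟩ := Vale.Agent.P032.H820.K.mpl_mem hK
  exact W.inC_sat _ _ _ (hg _)

/-- **A lemma.** -/
theorem good_lemF {Ls : List (List ℕ)} {C : List ℕ} {B HB dA d : ℕ} {A Ci D H : List ℕ} (hL : ∀ C ∈ Ls, GK C)
    (hC : nok C = true) (h : chkF (gI Ls (ngC C)) B HB dA d A Ci D H = true) : GK C := by
  refine ⟨fun T Q F => ?_, fun l hl => (nok_iff hC l hl).1⟩
  by_contra hno
  push Not at hno
  obtain ⟨σ0, h0⟩ := F.some_ 0 (by norm_num)
  obtain ⟨σ1, h1⟩ := F.some_ 1 (by norm_num)
  refine chkF_sound h (v := PA T Q fun t => if t = 0 then σ0 else σ1) (gI_ho F ?_ hL ?_)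
  · intro t ht
    interval_cases t
    · exact h0
    · exact h1
  · intro c hc
    obtain ⟨l, hl, rfl⟩ := List.mem_map.1 hc
    exact W.hh (W.lv_nl.2 fun h2 => hno l hl ((lv_L (nok_iff hC l hl).2).1 h2))

end Vale.Agent.P032.H240.Iso
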