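import Vale.Agent.P032.H240.Iso.St

/-!
# P032, isolated switching direction: the generator of clauses (kinds 0 .. 23)
-/

namespace Vale.Agent.P032.H240.Iso

open Vale.Agent.P032.H766.Iso (Fr St P L Good regRow inRows disRows avRows)
open Vale.Agent.P032.H820.K (trv ps ng mp lb lb_iff cd)
open Vale.Agent.P032.H240.W (lv Ho ho_trv hh ht hl hn hp hp' hng lv_ps lv_ng ho_mp ho_mp_or ho_bif)

/-! ### packed tables -/

def AVN : ℕ := 0xc77acdead795de097ad55ad566d545555d5a3326cc8930ccc4532743890f5c32d0ccc38bab5eac5a86ea2dab661c586ce109846e14678c9e2c7b59e8878d152c54695c457595223068c0832c8cc430703080d583ac0ec830aa95aa44aa6aaaca96214484ca188866a187395ce453a6cead3b5454514cc589166c5c3b0cec2db35ec89b2f632d8c6e3c58f5e3ab686da096acdac56a65109455d1ad46cd1063b58ec43868e2c39505c416c85081468542b2cacacb15ac08b0f23ac8e6a3448d5a32a6a69a8868c9a446861188475912c44c91bd59656ab591d6075a8d6555a756ab351cd9934d4d553674d43362cd9910d4487108c443122c43d1364487ac8ebd5ac76b3daf66b2baf1ebd588762c3882e22b8b1e2198ad62c3642d9bd656591966d5907668d93c5b6162a5b1968658896d4587162a3718d1836d0dd43470dc23428d1812d040612884c210284bc1160406ae8ab54ae72bbcad62baaad1ab548a722428a2a2aa891a29888d2242662993c676199864d198664899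
def DIN : ℕ := 0xb6e96675e55634e146a6e86665e45624e046a2e82661e41620e006ba89a0798590388180b2d92571d51530d105bad9a579d59538d185a2d82561d41520d005b68960758550348140aec8e46dc4d42cc0c4b6c96475c55434c144a2c82461c41420c004b28920718510308100aab8a369b49328b083b2b92371b51330b103a2b82361b41320b003ae88e06d84d02c80c0a6a86265a45224a042aea8e26da4d22ca0c2a2a82261a41220a002aa88a0698490288080ba99a1799591389181aa98a1699491289081a29821619411209001a68860658450248040b861ae9aeba67a699e59e79639658e18e386b4516d96db6576595d55d75535554d14d345b0412c92cb2472491c51c71431450c10c304ac30eb8ebae36e38db4db6d32d34cb0cb2c3a820aa8aaaa26a289a49a69229248a08a282a41069869a61661859459651251449049241a00028828a20620818418610210408008200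
def RGN : ℕ := 0x4314f6c2b8c65a864750ec214f6c2b8c65a074750ec216f2c2b8c65a074554e4316f2caa8c65a074554e4314f6caa8e61a074554e4314f6c2b8e61a864554ec214f6c2b8c65a864750ec216f2c2b8c65a074750ec216f2caa8c65a074554e4316f2caa8e61a074554e4314f6caa8e61a864554e4314f6c2b8e61a864750e

def avr (i : ℕ) : ℕ × ℕ × ℕ × ℕ × ℕ × ℕ :=
  let w := Nat.land (Nat.shiftRight AVN (Nat.mul 14 i)) 16383
  (Nat.land w 7, Nat.land (Nat.shiftRight w 3) 7, Nat.land (Nat.shiftRight w 6) 1,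
    Nat.land (Nat.shiftRight w 7) 7, Nat.land (Nat.shiftRight w 10) 7, Nat.shiftRight w 13)

def dir (i : ℕ) : ℕ × ℕ × ℕ × ℕ :=
  let w := Nat.land (Nat.shiftRight DIN (Nat.mul 12 i)) 4095
  (Nat.land w 7, Nat.land (Nat.shiftRight w 3) 7, Nat.land (Nat.shiftRight w 6) 7, Nat.shiftRight w 9)

def rgr (g i : ℕ) : ℕ × ℕ × ℕ :=
  let w := Nat.land (Nat.shiftRight RGN (Nat.mul 7 (Nat.add (Nat.mul 12 g) i))) 127
  (Nat.land w 7, Nat.land (Nat.shiftRight w 3) 7, Nat.shiftRight w 6)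

theorem avr_mem : ∀ i < 216, avr i ∈ avRows := by decide +kernel
theorem dir_mem : ∀ i < 228, dir i ∈ disRows := by decide +kernel
theorem rgr_mem : ∀ g < 12, ∀ i < 12, rgr g i ∈ regRow g := by decide +kernel

/-- bounds of the rows -/
theorem inr_lt : ∀ i < 24, (inr_ i).1 < 7 ∧ (inr_ i).2.1 < 6 ∧ (inr_ i).2.2 < 7 := by decide +kernel
theorem avr_lt : ∀ i < 216, (avr i).1 < 7 ∧ (avr i).2.1 < 6 ∧ (avr i).2.2.1 < 2 ∧ (avr i).2.2.2.1 < 7 ∧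
    (avr i).2.2.2.2.1 < 6 ∧ (avr i).2.2.2.2.2 < 2 := by decide +kernel
theorem dir_lt : ∀ i < 228, (dir i).1 < 7 ∧ (dir i).2.1 < 6 ∧ (dir i).2.2.1 < 7 ∧ (dir i).2.2.2 < 6 := by decide +kernel
theorem rgr_lt : ∀ g < 12, ∀ i < 12, (rgr g i).1 < 7 ∧ (rgr g i).2.1 < 6 ∧ (rgr g i).2.2 < 2 := by decide +kernel

/-! ### the clauses -/

def c_tz (c : ℕ) : List ℕ := cd (lb c 6) (bif Nat.beq c 5 then [ng (tc 0 c)] else [ps (tc 0 c)])
def c_tv (p : ℕ) : List ℕ := cd (lb p 7 && lb 0 p) [ps (tc p 5)]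
def c_tn (p : ℕ) : List ℕ := cd (lb p 7) (mp (fun c => ng (tc p c)) 6 [])
def c_md (p d t S S' : ℕ) : List ℕ :=
  cd (lb p 7 && lb d 6 && lb t 2 && Nat.beq (Nat.land S' S) S') [ng (at_ 2 p d t S), ps (at_ 2 p d t S')]
def c_mk (p d t S S' : ℕ) : List ℕ :=
  cd (lb p 7 && lb d 6 && lb t 2 && Nat.beq (Nat.land S' S) S') [ng (at_ 3 p d t S), ps (at_ 3 p d t S')]
def c_ma (p S S' : ℕ) : List ℕ :=
  cd (lb p 7 && Nat.beq (Nat.land S S') S) [ng (at_ 4 p 0 0 S), ps (at_ 4 p 0 0 S')]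
def c_r7 (i t S : ℕ) : List ℕ :=
  cd (lb i 24 && lb t 2) [ng (at_ 4 (inr_ i).2.2 0 0 S), ng (at_ 3 (inr_ i).1 (inr_ i).2.1 t S)]
def c_av (i S : ℕ) : List ℕ :=
  cd (lb i 216) [ng (at_ 3 (avr i).1 (avr i).2.1 (avr i).2.2.1 S),
    ps (at_ 2 (avr i).2.2.2.1 (avr i).2.2.2.2.1 (avr i).2.2.2.2.2 S)]
def c_s3 (a : ℕ) : List ℕ := cd (lb a 5) (mp (fun g => ps (at_ 5 g 0 0 (Nat.shiftLeft 1 a))) 12 [])
def c_sr (g i S : ℕ) : List ℕ :=
  cd (lb g 12 && lb i 12) [ng (at_ 5 g 0 0 S), ps (at_ 2 (rgr g i).1 (rgr g i).2.1 (rgr g i).2.2 S)]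
def c_bx (p a b : ℕ) : List ℕ := cd (lb p 7 && Nat.beq (Nat.land a b) 0) [ng (at_ 1 p 0 0 a), ng (at_ 1 p 0 0 b)]
def c_et (p a c : ℕ) : List ℕ := cd (lb p 7 && lb c 6 && tb a c) [ng (at_ 1 p 0 0 a), ps (tc p c)]
def c_eg (p a c0 : ℕ) : List ℕ :=
  cd (lb p 7 && lb c0 6) (ng (at_ 1 p 0 0 a) :: mf (fun c => !tb a c && !Nat.beq c c0) (fun c => ps (tc p c)) 6 [])
def c_dg (p a b c d c0 B : ℕ) : List ℕ :=
  cd (lb p 7 && lb a 6 && lb b 6 && lb c 6 && lb d 6 && !Nat.beq a b && !Nat.beq a c && !Nat.beq a d &&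
      !Nat.beq b c && !Nat.beq b d && !Nat.beq c d)
    (ng (tc p a) :: ng (tc p b) :: ng (tc p c) :: ng (tc p d) ::
      mf (fun x => !Nat.beq x a && !Nat.beq x c0)
        (fun x => bif tb B x then ps (tc p x) else ng (at_ 1 p 0 0 (Nat.lor (Nat.shiftLeft 1 a) (Nat.shiftLeft 1 x)))) 6 [])
def c_ne (t p j : ℕ) : List ℕ := cd (lb t 2 && lb p 7 && lb j 6) (mp (fun c => ps (xc t p j c)) 6 [])
def c_tw (t p j c : ℕ) : List ℕ :=
  cd (lb t 2 && lb p 7 && lb j 6 && lb c 6) (ng (xc t p j c) :: ng (tc p c) ::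
    mf (fun d => !Nat.beq d c) (fun d => ps (xc t p j d)) 6 [])
def c_gp (t p j c B : ℕ) : List ℕ :=
  cd (lb t 2 && lb p 7 && lb j 6 && lb c 6)
    (mf (fun d => !Nat.beq d c) (fun d => bif tb B d then ps (tc p d) else ng (xc t p j d)) 6 [])
def c_le (t p j a : ℕ) : List ℕ :=
  cd (lb t 2 && lb p 7 && lb j 6) (ps (at_ 1 p 0 0 a) ::
    mp (fun c => bif tb a c then ng (xc t p j c) else ps (xc t p j c)) 6 (mf (fun c => tb a c) (fun c => ng (tc p c)) 6 []))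
def c_la (t p j a : ℕ) : List ℕ :=
  cd (lb t 2 && lb p 7 && lb j 6) (ps (at_ 4 p 0 0 a) :: mf (fun c => !tb a c) (fun c => ps (xc t p j c)) 6 [])
def c_lk (t p j a : ℕ) : List ℕ :=
  cd (lb t 2 && lb p 7 && lb j 6) (ps (at_ 3 p j t a) :: mf (fun c => tb a c) (fun c => ng (xc t p j c)) 6 [])
def c_ld (t p j a : ℕ) : List ℕ :=
  cd (lb t 2 && lb p 7 && lb j 6) (ps (at_ 2 p j t a) :: mf (fun c => tb a c) (fun c => ps (xc t p j c)) 6 [])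
def c_ds (t i c : ℕ) : List ℕ :=
  cd (lb t 2 && lb i 228 && lb c 6) [ng (xc t (dir i).1 (dir i).2.1 c), ng (xc t (dir i).2.2.1 (dir i).2.2.2 c)]
def c_in (t i c : ℕ) : List ℕ :=
  cd (lb t 2 && lb i 24 && lb c 6) [ng (xc t (inr_ i).1 (inr_ i).2.1 c), ps (tc (inr_ i).2.2 c)]
def c_ty (t j : ℕ) : List ℕ :=
  cd (lb t 2 && lb j 6) (bif Nat.beq (Nat.mod (Nat.add j t) 2) 1 then [ps (xc t 0 j 5)] else [ng (xc t 0 j 5)])

/-! ### soundness -/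

section
variable {T : ℕ → ℕ → Prop} {Q : ℕ → St → Prop} {σ : ℕ → St} {p c : ℕ}

theorem pa_tc (hp : p < 16) (hc : c < 6) : PA T Q σ (tc p c) ↔ T p c := by
  unfold tc
  rw [pa0 hp]
  exact ⟨fun h => h c hc (tb_one.2 rfl), fun h c' _ h2 => by rw [tb_one.1 h2]; exact h⟩

theorem pa_xc {t j : ℕ} (hp : p < 16) (hj : j < 8) (ht : t < 2) : PA T Q σ (xc t p j c) ↔ σ t p j c := pa6 hp hj ht

theorem beqf {a b : ℕ} : (!Nat.beq a b) = true ↔ a ≠ b := by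
  rw [Bool.not_eq_true', Bool.eq_false_iff, ne_eq, Nat.beq_eq]

theorem sub_of {S S' : ℕ} (h : Nat.beq (Nat.land S' S) S' = true) {c : ℕ} (hc : S'.testBit c = true) :
    S.testBit c = true := by
  rw [Nat.beq_eq] at h
  have h : S' &&& S = S' := h
  rw [← h, Nat.testBit_and, Bool.and_eq_true] at hc
  exact hc.2

variable (F : Fr T Q) (hσ : ∀ t < 2, Q t (σ t))
include F

theorem h_tz (c : ℕ) : Ho (PA T Q σ) (c_tz c) := ho_cd fun h => by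
  rw [lb_iff] at h
  cases h1 : Nat.beq c 5
  · rw [cond_false]
    refine hp ((pa_tc (by omega) h).2 ((F.z5 c h).2 ?_))
    intro h2; rw [h2] at h1; cases h1
  · rw [cond_true]
    rw [Nat.beq_eq] at h1
    subst h1
    exact hng fun h2 => (F.z5 5 h).1 ((pa_tc (by omega) h).1 h2) rfl

theorem h_tv (p : ℕ) : Ho (PA T Q σ) (c_tv p) := ho_cd fun h => by
  rw [Bool.and_eq_true, lb_iff, lb_iff] at h
  exact hp ((pa_tc (by omega) (by omega)).2 (F.v5 p h.1 (by omega)))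

theorem h_tn (p : ℕ) : Ho (PA T Q σ) (c_tn p) := ho_cd fun h => by
  rw [lb_iff] at h
  obtain ⟨c, hc, h1⟩ := F.vn p h
  exact ho_mp hc (lv_ng.2 fun h2 => h1 ((pa_tc (by omega) hc).1 h2))

omit F in
theorem h_md (p d t S S' : ℕ) : Ho (PA T Q σ) (c_md p d t S S') := ho_cd fun h => by
  simp only [Bool.and_eq_true, lb_iff] at h
  obtain ⟨⟨⟨h1, h2⟩, h3⟩, h4⟩ := h
  refine hn fun h5 => hp ?_
  rw [pa2 (by omega) (by omega) h3] at h5 ⊢
  obtain ⟨τ, h6, h7⟩ := h5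
  exact ⟨τ, h6, fun c hc h8 => h7 c hc (sub_of h4 h8)⟩

omit F in
theorem h_mk (p d t S S' : ℕ) : Ho (PA T Q σ) (c_mk p d t S S') := ho_cd fun h => by
  simp only [Bool.and_eq_true, lb_iff] at h
  obtain ⟨⟨⟨h1, h2⟩, h3⟩, h4⟩ := h
  refine hn fun h5 => hp ?_
  rw [pa3 (by omega) (by omega) h3] at h5 ⊢
  obtain ⟨τ, h6, h7⟩ := h5
  exact ⟨τ, h6, fun c hc h8 => h7 c hc (sub_of h4 h8)⟩

omit F in
theorem h_ma (p S S' : ℕ) : Ho (PA T Q σ) (c_ma p S S') := ho_cd fun h => by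
  simp only [Bool.and_eq_true, lb_iff] at h
  refine hn fun h5 => hp ?_
  rw [pa4 (by omega)] at h5 ⊢
  obtain ⟨t, h6, τ, h7, d, h8, h9⟩ := h5
  exact ⟨t, h6, τ, h7, d, h8, fun c hc h10 => sub_of h.2 (h9 c hc h10)⟩

theorem h_r7 (i t S : ℕ) : Ho (PA T Q σ) (c_r7 i t S) := ho_cd fun h => by
  simp only [Bool.and_eq_true, lb_iff] at h
  obtain ⟨l1, l2, l3⟩ := inr_lt i h.1
  refine hn fun h1 => hng fun h2 => ?_
  rw [pa4 (by omega)] at h1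
  rw [pa3 (by omega) (by omega) h.2] at h2
  obtain ⟨t', ht', τ', hτ', d, hd, h3⟩ := h1
  obtain ⟨τ, hτ, h4⟩ := h2
  obtain ⟨c, hc, h5, h6⟩ := F.r7 _ (inr_mem i h.1) t h.2 t' ht' τ τ' hτ hτ' d hd
  exact h6 (h4 c hc (h3 c hc h5))

theorem h_av (i S : ℕ) : Ho (PA T Q σ) (c_av i S) := ho_cd fun h => by
  rw [lb_iff] at h
  obtain ⟨l1, l2, l3, l4, l5, l6⟩ := avr_lt i h
  refine hn fun h1 => hp ?_
  rw [pa3 (by omega) (by omega) l3] at h1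
  rw [pa2 (by omega) (by omega) l6]
  obtain ⟨τ, hτ, h3⟩ := h1
  obtain ⟨τ', hτ', h4⟩ := F.s12 _ (avr_mem i h) τ hτ
  exact ⟨τ', hτ', fun c hc h5 => h4 c hc (h3 c hc h5)⟩

theorem h_s3 (a : ℕ) : Ho (PA T Q σ) (c_s3 a) := ho_cd fun h => by
  rw [lb_iff] at h
  obtain ⟨g, hg, h1⟩ := F.s3 a h
  refine ho_mp hg (lv_ps.2 ?_)
  rw [pa5 (by omega)]
  intro r hr
  obtain ⟨τ, hτ, h2⟩ := h1 r hr
  exact ⟨τ, hτ, fun c _ hc => by rw [tb_one.1 hc]; exact h2⟩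

omit F in
theorem h_sr (g i S : ℕ) : Ho (PA T Q σ) (c_sr g i S) := ho_cd fun h => by
  simp only [Bool.and_eq_true, lb_iff] at h
  obtain ⟨l1, l2, l3⟩ := rgr_lt g h.1 i h.2
  refine hn fun h1 => hp ?_
  rw [pa5 (by omega)] at h1
  rw [pa2 (by omega) (by omega) l3]
  exact h1 _ (rgr_mem g h.1 i h.2)

theorem h_bx (p a b : ℕ) : Ho (PA T Q σ) (c_bx p a b) := ho_cd fun h => by
  simp only [Bool.and_eq_true, lb_iff, Nat.beq_eq] at h
  refine hn fun h1 => hng fun h2 => ?_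
  rw [pa1 (by omega)] at h1 h2
  obtain ⟨⟨t, ht, τ, hτ, j, hj, h3⟩, h4⟩ := h1
  obtain ⟨⟨t', ht', τ', hτ', j', hj', h3'⟩, h4'⟩ := h2
  obtain ⟨c, hc, h5, h6⟩ := F.biex t ht t' ht' τ τ' hτ hτ' p h.1 j hj j' hj'
    (fun c hc h7 => h4 c hc ((h3 c hc).1 h7)) (fun c hc h7 => h4' c hc ((h3' c hc).1 h7))
  have h7 := (h3 c hc).1 h5
  have h8 := (h3' c hc).1 h6
  have h9 : (a &&& b).testBit c = true := by rw [Nat.testBit_and, h7, h8]; rfl
  have h10 : a &&& b = 0 := h.2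
  rw [h10] at h9
  simp at h9

omit F in
theorem h_et (p a c : ℕ) : Ho (PA T Q σ) (c_et p a c) := ho_cd fun h => by
  simp only [Bool.and_eq_true, lb_iff] at h
  refine hn fun h1 => hp ?_
  rw [pa1 (by omega)] at h1
  rw [pa_tc (by omega) h.1.2]
  exact h1.2 c h.1.2 (by rw [← tb_eq]; exact h.2)

theorem h_eg (p a c0 : ℕ) : Ho (PA T Q σ) (c_eg p a c0) := ho_cd fun h => by
  simp only [Bool.and_eq_true, lb_iff] at h
  refine hn fun h1 => ?_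
  rw [pa1 (by omega)] at h1
  obtain ⟨⟨t, ht, τ, hτ, j, hj, h3⟩, h4⟩ := h1
  obtain ⟨d, hd, h5, h6, h7⟩ := F.gap t ht τ hτ p h.1 j hj c0 h.2
  refine ho_mf hd ?_ (lv_ps.2 ((pa_tc (by omega) hd).2 h6))
  rw [Bool.and_eq_true, beqf]
  refine ⟨?_, h5⟩
  rw [Bool.not_eq_true', Bool.eq_false_iff, ne_eq, tb_eq]
  exact fun h8 => h7 ((h3 d hd).2 h8)

theorem h_dg (p a b c d c0 B : ℕ) : Ho (PA T Q σ) (c_dg p a b c d c0 B) := ho_cd fun h => by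
  simp only [Bool.and_eq_true, lb_iff, beqf] at h
  obtain ⟨⟨⟨⟨⟨⟨⟨⟨⟨⟨hp7, ha⟩, hb⟩, hc⟩, hd⟩, hab⟩, hac⟩, had⟩, hbc⟩, hbd⟩, hcd⟩ := h
  refine hn fun h1 => hn fun h2 => hn fun h3 => hn fun h4 => ?_
  rw [pa_tc (by omega) ha] at h1
  rw [pa_tc (by omega) hb] at h2
  rw [pa_tc (by omega) hc] at h3
  rw [pa_tc (by omega) hd] at h4
  obtain ⟨x, hx, y, hy, hxa, hya, hxy, hTx, hTy, hE⟩ := F.deg p hp7 a ha b hb c hc d hd hab hac had hbc hbd hcd h1 h2 h3 h4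
  have key : ∀ w < 6, w ≠ a → w ≠ c0 → T p w → (∀ t < 2, ∀ τ, Q t τ → ∀ j < 6, ¬ (∀ e < 6, τ p j e ↔ e = a ∨ e = w)) →
      Ho (PA T Q σ) (mf (fun x => !Nat.beq x a && !Nat.beq x c0)
        (fun x => bif tb B x then ps (tc p x) else ng (at_ 1 p 0 0 (Nat.lor (Nat.shiftLeft 1 a) (Nat.shiftLeft 1 x)))) 6 []) := by
    intro w hw hwa hwc hTw hno
    refine ho_mf hw (by rw [Bool.and_eq_true, beqf, beqf]; exact ⟨hwa, hwc⟩) ?_
    show lv _ (bif tb B w then ps (tc p w) else ng (at_ 1 p 0 0 (Nat.lor (Nat.shiftLeft 1 a) (Nat.shiftLeft 1 w))))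
    cases tb B w
    · rw [cond_false, lv_ng, pa1 (by omega)]
      rintro ⟨⟨t, ht, τ, hτ, j, hj, h5⟩, -⟩
      refine hno t ht τ hτ j hj fun e he => ?_
      rw [h5 e he]
      have : Nat.lor (Nat.shiftLeft 1 a) (Nat.shiftLeft 1 w) = (Nat.shiftLeft 1 a) ||| (Nat.shiftLeft 1 w) := rfl
      rw [this, Nat.testBit_or, Bool.or_eq_true, tb_one, tb_one]
    · rw [cond_true, lv_ps]
      exact (pa_tc (by omega) hw).2 hTw
  by_cases h5 : x = c0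
  · exact key y hy hya (fun h6 => hxy (h5.trans h6.symm)) hTy fun t ht τ hτ j hj => (hE t ht τ hτ j hj).2
  · exact key x hx hxa h5 hTx fun t ht τ hτ j hj => (hE t ht τ hτ j hj).1

include hσ

theorem h_ne (t p j : ℕ) : Ho (PA T Q σ) (c_ne t p j) := ho_cd fun h => by
  simp only [Bool.and_eq_true, lb_iff] at h
  obtain ⟨c, hc, h1⟩ := F.ne t h.1.1 (σ t) (hσ t h.1.1) p h.1.2 j h.2
  exact ho_mp hc (lv_ps.2 ((pa_xc (by omega) (by omega) h.1.1).2 h1))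

theorem h_tw (t p j c : ℕ) : Ho (PA T Q σ) (c_tw t p j c) := ho_cd fun h => by
  simp only [Bool.and_eq_true, lb_iff] at h
  obtain ⟨⟨⟨ht, hp⟩, hj⟩, hc⟩ := h
  refine hn fun h1 => hn fun h2 => ?_
  rw [pa_xc (by omega) (by omega) ht] at h1
  rw [pa_tc (by omega) hc] at h2
  obtain ⟨d, hd, h3, h4⟩ := F.two t ht (σ t) (hσ t ht) p hp j hj c hc h1 h2
  exact ho_mf hd (beqf.2 h3) (lv_ps.2 ((pa_xc (by omega) (by omega) ht).2 h4))

theorem h_gp (t p j c B : ℕ) : Ho (PA T Q σ) (c_gp t p j c B) := ho_cd fun h => by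
  simp only [Bool.and_eq_true, lb_iff] at h
  obtain ⟨⟨⟨ht, hp⟩, hj⟩, hc⟩ := h
  obtain ⟨d, hd, h3, h4, h5⟩ := F.gap t ht (σ t) (hσ t ht) p hp j hj c hc
  refine ho_mf hd (beqf.2 h3) ?_
  show lv _ (bif tb B d then ps (tc p d) else ng (xc t p j d))
  cases tb B d
  · rw [cond_false, lv_ng, pa_xc (by omega) (by omega) ht]; exact h5
  · rw [cond_true, lv_ps]; exact (pa_tc (by omega) hd).2 h4

theorem h_le (t p j a : ℕ) : Ho (PA T Q σ) (c_le t p j a) := ho_cd fun h => by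
  simp only [Bool.and_eq_true, lb_iff] at h
  obtain ⟨⟨ht, hp⟩, hj⟩ := h
  refine hp' fun h1 => ho_mp_or fun h2 => ?_
  by_contra h3
  have h4 : ∀ c < 6, a.testBit c = true → T p c := by
    intro c hc h5
    by_contra h6
    refine h3 (ho_mf hc (by rw [tb_eq]; exact h5) (lv_ng.2 fun h7 => h6 ((pa_tc (by omega) hc).1 h7)))
  refine h1 ((pa1 (by omega)).2 ⟨⟨t, ht, σ t, hσ t ht, j, hj, fun c hc => ?_⟩, h4⟩)
  have h5 := h2 c hc
  rw [← tb_eq]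
  have h6 : ¬ lv (PA T Q σ) (bif tb a c then ng (xc t p j c) else ps (xc t p j c)) := h5
  cases h7 : tb a c
  · rw [h7, cond_false, lv_ps, pa_xc (by omega) (by omega) ht] at h6
    exact ⟨fun h8 => absurd h8 h6, fun h8 => by cases h8⟩
  · rw [h7, cond_true, lv_ng, pa_xc (by omega) (by omega) ht, not_not] at h6
    exact ⟨fun _ => rfl, fun _ => h6⟩

theorem h_la (t p j a : ℕ) : Ho (PA T Q σ) (c_la t p j a) := ho_cd fun h => by
  simp only [Bool.and_eq_true, lb_iff] at h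
  obtain ⟨⟨ht, hp⟩, hj⟩ := h
  refine hp' fun h1 => ?_
  by_contra h3
  refine h1 ((pa4 (by omega)).2 ⟨t, ht, σ t, hσ t ht, j, hj, fun c hc h4 => ?_⟩)
  by_contra h5
  refine h3 (ho_mf hc ?_ (lv_ps.2 ((pa_xc (by omega) (by omega) ht).2 h4)))
  show (!tb a c) = true
  rw [Bool.not_eq_true', Bool.eq_false_iff, ne_eq, tb_eq]
  exact h5

theorem h_lk (t p j a : ℕ) : Ho (PA T Q σ) (c_lk t p j a) := ho_cd fun h => by
  simp only [Bool.and_eq_true, lb_iff] at h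
  obtain ⟨⟨ht, hp⟩, hj⟩ := h
  refine hp' fun h1 => ?_
  by_contra h3
  refine h1 ((pa3 (by omega) (by omega) ht).2 ⟨σ t, hσ t ht, fun c hc h4 => ?_⟩)
  by_contra h5
  exact h3 (ho_mf hc (by rw [tb_eq]; exact h4) (lv_ng.2 fun h6 => h5 ((pa_xc (by omega) (by omega) ht).1 h6)))

theorem h_ld (t p j a : ℕ) : Ho (PA T Q σ) (c_ld t p j a) := ho_cd fun h => by
  simp only [Bool.and_eq_true, lb_iff] at h
  obtain ⟨⟨ht, hp⟩, hj⟩ := h
  refine hp' fun h1 => ?_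
  by_contra h3
  refine h1 ((pa2 (by omega) (by omega) ht).2 ⟨σ t, hσ t ht, fun c hc h4 h5 => ?_⟩)
  exact h3 (ho_mf hc (by rw [tb_eq]; exact h4) (lv_ps.2 ((pa_xc (by omega) (by omega) ht).2 h5)))

theorem h_ds (t i c : ℕ) : Ho (PA T Q σ) (c_ds t i c) := ho_cd fun h => by
  simp only [Bool.and_eq_true, lb_iff] at h
  obtain ⟨⟨ht, hi⟩, hc⟩ := h
  obtain ⟨l1, l2, l3, l4⟩ := dir_lt i hi
  refine hn fun h1 => hng fun h2 => ?_
  rw [pa_xc (by omega) (by omega) ht] at h1 h2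
  exact F.dis _ (dir_mem i hi) t ht (σ t) (hσ t ht) c hc h1 h2

theorem h_in (t i c : ℕ) : Ho (PA T Q σ) (c_in t i c) := ho_cd fun h => by
  simp only [Bool.and_eq_true, lb_iff] at h
  obtain ⟨⟨ht, hi⟩, hc⟩ := h
  obtain ⟨l1, l2, l3⟩ := inr_lt i hi
  refine hn fun h1 => hp ?_
  rw [pa_xc (by omega) (by omega) ht] at h1
  exact (pa_tc (by omega) hc).2 (F.inn _ (inr_mem i hi) t ht (σ t) (hσ t ht) c hc h1)

theorem h_ty (t j : ℕ) : Ho (PA T Q σ) (c_ty t j) := ho_cd fun h => by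
  simp only [Bool.and_eq_true, lb_iff] at h
  obtain ⟨ht, hj⟩ := h
  have e := F.ty t ht (σ t) (hσ t ht) j hj
  cases h1 : Nat.beq (Nat.mod (Nat.add j t) 2) 1
  · rw [cond_false]
    refine hng fun h2 => ?_
    rw [pa_xc (by omega) (by omega) ht] at h2
    have h3 : (j + t) % 2 = 1 := e.1 h2
    have h4 : Nat.beq ((j + t) % 2) 1 = false := h1
    rw [h3] at h4; cases h4
  · rw [cond_true]
    rw [Nat.beq_eq] at h1
    exact hp ((pa_xc (by omega) (by omega) ht).2 (e.2 h1))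

end

/-! ### fields and dispatch -/

def g1 (n : ℕ) : ℕ := Nat.land (Nat.shiftRight n 6) 63
def g2 (n : ℕ) : ℕ := Nat.land (Nat.shiftRight n 12) 63
def g3 (n : ℕ) : ℕ := Nat.land (Nat.shiftRight n 18) 63
def g4 (n : ℕ) : ℕ := Nat.land (Nat.shiftRight n 24) 63
def g5 (n : ℕ) : ℕ := Nat.land (Nat.shiftRight n 30) 63
def g6 (n : ℕ) : ℕ := Nat.land (Nat.shiftRight n 36) 63
def g7 (n : ℕ) : ℕ := Nat.land (Nat.shiftRight n 42) 63
/-- twelve bits from the second field -/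
def g12 (n : ℕ) : ℕ := Nat.land (Nat.shiftRight n 12) 4095
def g01 (n : ℕ) : ℕ := Nat.land (Nat.shiftRight n 6) 4095

/-- kinds  -/
def k0 (k n : ℕ) : List ℕ :=
  bif Nat.beq k 3 then c_md (g1 n) (g2 n) (g3 n) (g4 n) (g5 n) else
  bif Nat.beq k 4 then c_mk (g1 n) (g2 n) (g3 n) (g4 n) (g5 n) else
  bif Nat.beq k 7 then c_av (g01 n) (g3 n) else
  bif Nat.beq k 6 then c_r7 (g1 n) (g2 n) (g3 n) else
  bif Nat.beq k 5 then c_ma (g1 n) (g2 n) (g3 n) else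
  bif Nat.beq k 0 then c_tz (g1 n) else
  bif Nat.beq k 1 then c_tv (g1 n) else c_tn (g1 n)

/-- kinds  -/
def k1 (k n : ℕ) : List ℕ :=
  bif Nat.beq k 1 then c_sr (g1 n) (g2 n) (g3 n) else
  bif Nat.beq k 2 then c_bx (g1 n) (g2 n) (g3 n) else
  bif Nat.beq k 3 then c_et (g1 n) (g2 n) (g3 n) else
  bif Nat.beq k 4 then c_eg (g1 n) (g2 n) (g3 n) else
  bif Nat.beq k 5 then c_dg (g1 n) (g2 n) (g3 n) (g4 n) (g5 n) (g6 n) (g7 n) else
  bif Nat.beq k 6 then c_ne (g1 n) (g2 n) (g3 n) else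
  bif Nat.beq k 7 then c_tw (g1 n) (g2 n) (g3 n) (g4 n) else c_s3 (g1 n)

/-- kinds  -/
def k2 (k n : ℕ) : List ℕ :=
  bif Nat.beq k 0 then c_gp (g1 n) (g2 n) (g3 n) (g4 n) (g5 n) else
  bif Nat.beq k 1 then c_le (g1 n) (g2 n) (g3 n) (g4 n) else
  bif Nat.beq k 2 then c_la (g1 n) (g2 n) (g3 n) (g4 n) else
  bif Nat.beq k 3 then c_lk (g1 n) (g2 n) (g3 n) (g4 n) else
  bif Nat.beq k 4 then c_ld (g1 n) (g2 n) (g3 n) (g4 n) else
  bif Nat.beq k 5 then c_ds (g1 n) (g12 n) (g4 n) else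
  bif Nat.beq k 6 then c_in (g1 n) (g2 n) (g3 n) else c_ty (g1 n) (g2 n)

/-- kinds  -/
def gb (n : ℕ) : List ℕ :=
  bif Nat.beq (Nat.land (Nat.shiftRight n 3) 7) 0 then k0 (Nat.land n 7) n else
  bif Nat.beq (Nat.land (Nat.shiftRight n 3) 7) 1 then k1 (Nat.land n 7) n else k2 (Nat.land n 7) n

theorem gb_ho {T : ℕ → ℕ → Prop} {Q : ℕ → St → Prop} {σ : ℕ → St} (F : Fr T Q) (hσ : ∀ t < 2, Q t (σ t)) (n : ℕ) :
    Ho (PA T Q σ) (gb n) := by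
  unfold gb k0 k1 k2
  exact ho_bif (ho_bif (h_md _ _ _ _ _) (ho_bif (h_mk _ _ _ _ _) (ho_bif (h_av F _ _) (ho_bif (h_r7 F _ _ _)
    (ho_bif (h_ma _ _ _) (ho_bif (h_tz F _) (ho_bif (h_tv F _) (h_tn F _))))))))
    (ho_bif (ho_bif (h_sr _ _ _) (ho_bif (h_bx F _ _ _) (ho_bif (h_et _ _ _) (ho_bif (h_eg F _ _ _)
      (ho_bif (h_dg F _ _ _ _ _ _ _) (ho_bif (h_ne F hσ _ _ _) (ho_bif (h_tw F hσ _ _ _ _) (h_s3 F _))))))))
      (ho_bif (h_gp F hσ _ _ _ _ _) (ho_bif (h_le F hσ _ _ _ _) (ho_bif (h_la F hσ _ _ _ _) (ho_bif (h_lk F hσ _ _ _ _)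
        (ho_bif (h_ld F hσ _ _ _ _) (ho_bif (h_ds F hσ _ _ _) (ho_bif (h_in F hσ _ _ _) (h_ty F hσ _ _)))))))))

end Vale.Agent.P032.H240.Iso
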