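import Vale.Agent.P032.H766.IsoFr
import Vale.Agent.P032.H240.W.ChkU

/-!
# P032, isolated switching direction: the clauses of one state per side and the base clauses, by code

Atoms: the codes of `H766/IsoFr` and `cd 6 p j t c` : the colour `c` is in the letter `(p, j)` of the state `σ t`.
-/

namespace Vale.Agent.P032.H240.Iso

open Vale.Agent.P032.H766.Iso (Fr St P L Good regRow inRows disRows avRows)
open Vale.Agent.P032.H820.K (trv ps ng lb lb_iff)
open Vale.Agent.P032.H240.W (lv Ho ho_trv hh ht hl hn hp hp' hng lv_ps lv_ng)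

/-- the atoms with states -/
def PA (T : ℕ → ℕ → Prop) (Q : ℕ → St → Prop) (σ : ℕ → St) (n : ℕ) : Prop :=
  if n % 8 = 6 then σ (n / 1024 % 2) (n / 8 % 16) (n / 128 % 8) (n / 2048) else P T Q n

/-- codes -/
def at_ (k p d t S : ℕ) : ℕ :=
  Nat.add k (Nat.add (Nat.mul 8 p) (Nat.add (Nat.mul 128 d) (Nat.add (Nat.mul 1024 t) (Nat.mul 2048 S))))

theorem at_eq {k p d t S : ℕ} : at_ k p d t S = k + (8 * p + (128 * d + (1024 * t + 2048 * S))) := rfl

section
variable {T : ℕ → ℕ → Prop} {Q : ℕ → St → Prop} {σ : ℕ → St} {k p d t S : ℕ}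

theorem at_div (hk : k < 8) (hp : p < 16) (hd : d < 8) (ht : t < 2) :
    at_ k p d t S % 8 = k ∧ at_ k p d t S / 8 % 16 = p ∧ at_ k p d t S / 128 % 8 = d ∧
      at_ k p d t S / 1024 % 2 = t ∧ at_ k p d t S / 2048 = S := by
  rw [at_eq]
  refine ⟨?_, ?_, ?_, ?_, ?_⟩ <;> omega

theorem pa0 (hp : p < 16) : PA T Q σ (at_ 0 p 0 0 S) ↔ ∀ c < 6, S.testBit c = true → T p c := by
  obtain ⟨h1, h2, h3, h4, h5⟩ := at_div (k := 0) (d := 0) (t := 0) (S := S) (by omega) hp (by omega) (by omega)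
  unfold PA P; rw [h1, h2, h5]; simp

theorem pa1 (hp : p < 16) : PA T Q σ (at_ 1 p 0 0 S) ↔
    (∃ t < 2, ∃ σ, Q t σ ∧ ∃ d < 6, ∀ c < 6, σ p d c ↔ S.testBit c = true) ∧
      ∀ c < 6, S.testBit c = true → T p c := by
  obtain ⟨h1, h2, h3, h4, h5⟩ := at_div (k := 1) (d := 0) (t := 0) (S := S) (by omega) hp (by omega) (by omega)
  unfold PA P; rw [h1, h2, h5]; simp

theorem pa2 (hp : p < 16) (hd : d < 8) (ht : t < 2) : PA T Q σ (at_ 2 p d t S) ↔
    ∃ σ, Q t σ ∧ ∀ c < 6, S.testBit c = true → ¬ σ p d c := by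
  obtain ⟨h1, h2, h3, h4, h5⟩ := at_div (k := 2) (S := S) (by omega) hp hd ht
  unfold PA P; rw [h1, h2, h3, h4, h5]; simp

theorem pa3 (hp : p < 16) (hd : d < 8) (ht : t < 2) : PA T Q σ (at_ 3 p d t S) ↔
    ∃ σ, Q t σ ∧ ∀ c < 6, S.testBit c = true → σ p d c := by
  obtain ⟨h1, h2, h3, h4, h5⟩ := at_div (k := 3) (S := S) (by omega) hp hd ht
  unfold PA P; rw [h1, h2, h3, h4, h5]; simp

theorem pa4 (hp : p < 16) : PA T Q σ (at_ 4 p 0 0 S) ↔
    ∃ t < 2, ∃ σ, Q t σ ∧ ∃ d < 6, ∀ c < 6, σ p d c → S.testBit c = true := by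
  obtain ⟨h1, h2, h3, h4, h5⟩ := at_div (k := 4) (d := 0) (t := 0) (S := S) (by omega) hp (by omega) (by omega)
  unfold PA P; rw [h1, h2, h5]; simp

theorem pa5 (hp : p < 16) : PA T Q σ (at_ 5 p 0 0 S) ↔
    ∀ r ∈ regRow p, ∃ σ, Q r.2.2 σ ∧ ∀ c < 6, S.testBit c = true → ¬ σ r.1 r.2.1 c := by
  obtain ⟨h1, h2, h3, h4, h5⟩ := at_div (k := 5) (d := 0) (t := 0) (S := S) (by omega) hp (by omega) (by omega)
  unfold PA P; rw [h1, h2, h5]; simp

theorem pa6 (hp : p < 16) (hd : d < 8) (ht : t < 2) : PA T Q σ (at_ 6 p d t S) ↔ σ t p d S := by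
  obtain ⟨h1, h2, h3, h4, h5⟩ := at_div (k := 6) (S := S) (by omega) hp hd ht
  unfold PA; rw [h1, h2, h3, h4, h5]; simp

end

/-- colour `c` in the palette of `p` -/
def tc (p c : ℕ) : ℕ := at_ 0 p 0 0 (Nat.shiftLeft 1 c)
/-- colour `c` in the letter of the state -/
def xc (t p j c : ℕ) : ℕ := at_ 6 p j t c
/-- bit -/
def tb (m c : ℕ) : Bool := Nat.beq (Nat.land (Nat.shiftRight m c) 1) 1

theorem tb_eq {m c : ℕ} : tb m c = m.testBit c := by
  unfold tb
  have e : Nat.land (Nat.shiftRight m c) 1 = m / 2 ^ c % 2 := by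
    show (m >>> c) &&& 1 = _
    rw [Nat.and_one_is_mod, Nat.shiftRight_eq_div_pow]
  rw [e, Nat.testBit_eq_decide_div_mod_eq]
  rcases Nat.mod_two_eq_zero_or_one (m / 2 ^ c) with h | h
  · rw [h]; rfl
  · rw [h]; rfl

theorem tb_one {c d : ℕ} : (Nat.shiftLeft 1 c).testBit d = true ↔ d = c := by
  show (1 <<< c).testBit d = true ↔ d = c
  rw [Nat.shiftLeft_eq, one_mul, Nat.testBit_two_pow]
  simp [eq_comm]

/-- filtered list, descending -/
def mf (b : ℕ → Bool) (f : ℕ → ℕ) (n : ℕ) (r : List ℕ) : List ℕ :=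
  @Nat.rec (fun _ => List ℕ) r (fun i ih => bif b i then f i :: ih else ih) n

section
variable {v : ℕ → Prop}

theorem ho_mf {b : ℕ → Bool} {f : ℕ → ℕ} {n i : ℕ} {r : List ℕ} (hi : i < n) (hb : b i = true)
    (h : lv v (f i)) : Ho v (mf b f n r) := by
  induction n with
  | zero => exact absurd hi (Nat.not_lt_zero _)
  | succ n ih =>
    show Ho v (bif b n then f n :: mf b f n r else mf b f n r)
    rcases Nat.lt_succ_iff_lt_or_eq.1 hi with h1 | h1
    · cases b n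
      · exact ih h1
      · exact ht (ih h1)
    · subst h1; rw [hb]; exact hh h

theorem ho_mf_r {b : ℕ → Bool} {f : ℕ → ℕ} {n : ℕ} {r : List ℕ} (h : Ho v r) : Ho v (mf b f n r) := by
  induction n with
  | zero => exact h
  | succ n ih =>
    show Ho v (bif b n then f n :: mf b f n r else mf b f n r)
    cases b n
    · exact ih
    · exact ht ih

theorem ho_mf_or {b : ℕ → Bool} {f : ℕ → ℕ} {n : ℕ} {r : List ℕ}
    (h : (∀ i < n, b i = true → ¬ lv v (f i)) → Ho v r) : Ho v (mf b f n r) := by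
  by_cases h1 : ∃ i < n, b i = true ∧ lv v (f i)
  · obtain ⟨i, hi, hb, h2⟩ := h1
    exact ho_mf hi hb h2
  · push Not at h1
    exact ho_mf_r (h h1)

theorem ho_cd {b : Bool} {c : List ℕ} (h : b = true → Ho v c) : Ho v (Vale.Agent.P032.H820.K.cd b c) :=
  W.ho_cd h

end

/-! ### tables -/

/-- rows of `inRows` packed -/
def inr_ (i : ℕ) : ℕ × ℕ × ℕ :=
  let k := Nat.div i 4
  let w := Nat.mod i 4
  bif Nat.beq w 0 then (0, k, Nat.succ k) else
  bif Nat.beq w 1 then (Nat.succ k, Nat.mod (Nat.add k 3) 6, 0) else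
  bif Nat.beq w 2 then (Nat.succ k, Nat.mod (Nat.add k 2) 6, Nat.succ (Nat.mod (Nat.add k 1) 6)) else
    (Nat.succ k, Nat.mod (Nat.add k 4) 6, Nat.succ (Nat.mod (Nat.add k 5) 6))

theorem inr_mem : ∀ i < 24, inr_ i ∈ inRows := by decide +kernel

end Vale.Agent.P032.H240.Iso
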